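import Vale.Agent.P038.K4.L.Main
import Vale.Agent.P038.K4.Main
import Vale.Agent.P038.K4.Sub.Subst
import Vale.Agent.P038.Cmb.OutTri
import Vale.Agent.P038.K4.Sub.K5

open Vale.Agent.P038 Vale.Agent.P038.K4 Vale.Agent.P038.K4.Sub

universe u

/-- Seymour's second neighbourhood conjecture (constant 1, unweighted and with nonnegative vertex
weights), (1) for every oriented graph which has a vertex `v0` of minimum outdegree such that no
`K₄` meets `v0` and its out-neighbours (or all these `K₄`s are cyclic triangles dominating a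
vertex), (2) for every oriented graph built, by substitution and by adding vertices upstream, from
tournaments and from oriented graphs without `K₄` (or all of whose `K₄`s are cyclic triangles
dominating a vertex), and (3) for every oriented graph obtained by substituting arbitrary oriented
graphs that satisfy the conjecture for the vertices of such a graph. Moreover (4) the conjecture
holds with the constant `(2 + √31)/9 = 0.84086…` when no vertex has three pairwise joined
out-neighbours, and (5) with the constant `483/625 = 0.7728` when no vertex has four pairwise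
joined out-neighbours. -/
theorem Vale.Agent.Results.P038.AllClasses.result :
    (∀ {V : Type u} [Fintype V] (D : OGraph V),
      (∀ v0, (∀ v, (N1 D v0).card ≤ (N1 D v).card) → (NoK4Near D v0 ∨ OnlySinkK4Near D v0) →
        ∃ v, (v = v0 ∨ D.arc v0 v) ∧ (N1 D v).card ≤ (N2 D v).card) ∧
      (∀ w : V → ℝ, (∀ v, 0 ≤ w v) → ∀ v0, (∀ v, ∑ x ∈ N1 D v0, w x ≤ ∑ x ∈ N1 D v, w x) →
        (NoK4Near D v0 ∨ OnlySinkK4Near D v0) →
        ∃ v, (v = v0 ∨ D.arc v0 v) ∧ ∑ x ∈ N1 D v, w x ≤ ∑ x ∈ N2 D v, w x)) ∧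
    (∀ {V : Type u} [Fintype V] [Nonempty V] (D : OGraph V), Built D →
      (∃ v, (N1 D v).card ≤ (N2 D v).card) ∧
      ∀ w : V → ℝ, (∀ v, 0 ≤ w v) → ∃ v, ∑ x ∈ N1 D v, w x ≤ ∑ x ∈ N2 D v, w x) ∧
    (∀ {V Q : Type u} [Fintype V] [Nonempty V] (D : OGraph V) (E : OGraph Q) (π : V → Q)
      [∀ q, Fintype {x // π x = q}], Function.Surjective π →
      (∀ u v, π u ≠ π v → (D.arc u v ↔ E.arc (π u) (π v))) → Built E →
      (∀ q, ∃ v, (N1 (pull D (Subtype.val : {x // π x = q} → V)) v).card ≤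
        (N2 (pull D (Subtype.val : {x // π x = q} → V)) v).card) →
      ∃ v, (N1 D v).card ≤ (N2 D v).card) ∧
    (∀ {V : Type u} [Fintype V] [Nonempty V] (D : OGraph V), NoOutTriangle D →
      (∃ v, (2 + Real.sqrt 31) / 9 * ((N1 D v).card : ℝ) ≤ ((N2 D v).card : ℝ)) ∧
      ∀ w : V → ℝ, (∀ v, 0 ≤ w v) →
        ∃ v, (2 + Real.sqrt 31) / 9 * ∑ x ∈ N1 D v, w x ≤ ∑ x ∈ N2 D v, w x) ∧
    (∀ {V : Type u} [Fintype V] [Nonempty V] (D : OGraph V), NoOutK4 D →
      (∃ v, (483 / 625 : ℝ) * ((N1 D v).card : ℝ) ≤ ((N2 D v).card : ℝ)) ∧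
      ∀ w : V → ℝ, (∀ v, 0 ≤ w v) →
        ∃ v, (483 / 625 : ℝ) * ∑ x ∈ N1 D v, w x ≤ ∑ x ∈ N2 D v, w x) := by
  have hP : ∀ {V : Type u} [Fintype V] [Nonempty V] (D : OGraph V), OnlySinkK4 D → WSNC D :=
    fun D hD w hw => snc_weighted D hD.noBad w hw
  refine ⟨fun D => ?_, fun D hD => ?_,
    fun D E π _ hπ harc hE hF => Built.card_subst hP D E π hπ harc hE hF, fun D hD => ?_,
    fun D hD => ?_⟩
  · have key : ∀ v0, (NoK4Near D v0 ∨ OnlySinkK4Near D v0) → LocalFree D v0 := by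
      rintro v0 (h | h)
      · exact h.onlySink.localFree
      · exact h.localFree
    exact ⟨fun v0 h h' => local_snc_card D v0 h (key v0 h'),
      fun w hw v0 h h' => local_snc_weighted D w hw v0 h (key v0 h')⟩
  · have h := hD.wsnc hP
    refine ⟨?_, h⟩
    obtain ⟨v, hv⟩ := h (fun _ => 1) (fun _ => zero_le_one)
    exact ⟨v, by simpa using hv⟩
  · have hs : Real.sqrt 31 ^ 2 = 31 := Real.sq_sqrt (by norm_num)
    have hs0 : 0 ≤ Real.sqrt 31 := Real.sqrt_nonneg _
    have hl : 9 * ((2 + Real.sqrt 31) / 9) ^ 2 = 4 * ((2 + Real.sqrt 31) / 9) + 3 := by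
      nlinarith
    have hl0 : 0 < (2 + Real.sqrt 31) / 9 := by positivity
    refine ⟨?_, fun w hw => outTri_weighted D hD w hw _ hl hl0⟩
    obtain ⟨v, hv⟩ := outTri_weighted D hD (fun _ => (1 : ℝ)) (fun _ => zero_le_one) _ hl hl0
    refine ⟨v, ?_⟩
    simpa using hv
  · refine ⟨?_, fun w hw => outK4_weighted D hD w hw⟩
    obtain ⟨v, hv⟩ := outK4_weighted D hD (fun _ => (1 : ℝ)) (fun _ => zero_le_one)
    refine ⟨v, ?_⟩
    simpa using hv
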