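import Vale.Agent.P038.K4.L.Main

open Vale.Agent.P038 Vale.Agent.P038.K4

/-- Let `v0` be a vertex of minimum outdegree of a finite oriented graph. If no `K₄` meets `v0` and
its out-neighbours (or if all such `K₄`s are cyclic triangles together with a vertex dominated by
the triangle), then `v0` or one of its out-neighbours satisfies the inequality of Seymour's
conjecture. The same holds with nonnegative weights on the vertices, for `v0` of minimum
out-weight. In particular the conjecture holds for all orientations of `K₄`-free graphs. -/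
theorem Vale.Agent.Results.P038.K4Near.result {V : Type*} [Fintype V] (D : OGraph V) :
    (∀ v0, (∀ v, (N1 D v0).card ≤ (N1 D v).card) → (NoK4Near D v0 ∨ OnlySinkK4Near D v0) →
      ∃ v, (v = v0 ∨ D.arc v0 v) ∧ (N1 D v).card ≤ (N2 D v).card) ∧
    (∀ w : V → ℝ, (∀ v, 0 ≤ w v) → ∀ v0, (∀ v, ∑ x ∈ N1 D v0, w x ≤ ∑ x ∈ N1 D v, w x) →
      (NoK4Near D v0 ∨ OnlySinkK4Near D v0) →
      ∃ v, (v = v0 ∨ D.arc v0 v) ∧ ∑ x ∈ N1 D v, w x ≤ ∑ x ∈ N2 D v, w x) ∧
    (Nonempty V → NoK4 D → ∃ v, (N1 D v).card ≤ (N2 D v).card) := by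
  have key : ∀ v0, (NoK4Near D v0 ∨ OnlySinkK4Near D v0) → LocalFree D v0 := by
    rintro v0 (h | h)
    · exact h.onlySink.localFree
    · exact h.localFree
  refine ⟨fun v0 h h' => local_snc_card D v0 h (key v0 h'),
    fun w hw v0 h h' => local_snc_weighted D w hw v0 h (key v0 h'), fun hne h => ?_⟩
  obtain ⟨v0, hv0⟩ := Finite.exists_min (fun v => (N1 D v).card)
  obtain ⟨v, _, hv⟩ := local_snc_card D v0 hv0 (key v0 (Or.inl (h.near v0)))
  exact ⟨v, hv⟩
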