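import Vale.Agent.P038.Bdl.B1

open Vale.Agent.P038

/-- Let `D` be a nonempty finite oriented graph in which no vertex has three pairwise joined
out-neighbours (for example, any oriented graph whose underlying graph has no `K₄`). Then some
vertex `v` satisfies `|N₂⁺(v)| ≥ ((2 + √31)/9) |N₁⁺(v)|`, where `(2 + √31)/9 = 0.84086…`. The same
holds for every nonnegative weight function on the vertices. -/
theorem Vale.Agent.Results.P038.OutTriangleFree.result
    {V : Type*} [Fintype V] [Nonempty V] (D : OGraph V) (hD : NoOutTriangle D) :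
    (∃ v, (2 + Real.sqrt 31) / 9 * ((N1 D v).card : ℝ) ≤ ((N2 D v).card : ℝ)) ∧
    ∀ w : V → ℝ, (∀ v, 0 ≤ w v) →
      ∃ v, (2 + Real.sqrt 31) / 9 * ∑ x ∈ N1 D v, w x ≤ ∑ x ∈ N2 D v, w x := by
  have hs : Real.sqrt 31 ^ 2 = 31 := Real.sq_sqrt (by norm_num)
  have hs0 : 0 ≤ Real.sqrt 31 := Real.sqrt_nonneg _
  have hl : 9 * ((2 + Real.sqrt 31) / 9) ^ 2 = 4 * ((2 + Real.sqrt 31) / 9) + 3 := by
    nlinarith
  have hl0 : 0 < (2 + Real.sqrt 31) / 9 := by positivity
  refine ⟨?_, fun w hw => outTri_weighted D hD w hw _ hl hl0⟩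
  obtain ⟨v, hv⟩ := outTri_weighted D hD (fun _ => (1 : ℝ)) (fun _ => zero_le_one) _ hl hl0
  refine ⟨v, ?_⟩
  simpa using hv
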