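import Vale.Agent.P038.K4.Main
import Vale.Agent.P038.K4.Sub.Subst

open Vale.Agent.P038 Vale.Agent.P038.K4 Vale.Agent.P038.K4.Sub

universe u

/-- Seymour's second neighbourhood conjecture, unweighted and with arbitrary nonnegative weights,
for every nonempty finite oriented graph that is built, by substitution and by adding vertices
upstream, from tournaments and from oriented graphs without `K₄` (or all of whose `K₄`s are a cyclic
triangle dominating a vertex). Moreover, substituting arbitrary oriented graphs that satisfy the
conjecture for the vertices of such a graph gives an oriented graph that satisfies it. -/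
theorem Vale.Agent.Results.P038.Substitution.result :
    (∀ {V : Type u} [Fintype V] [Nonempty V] (D : OGraph V), Built D →
      (∃ v, (N1 D v).card ≤ (N2 D v).card) ∧
      ∀ w : V → ℝ, (∀ v, 0 ≤ w v) → ∃ v, ∑ x ∈ N1 D v, w x ≤ ∑ x ∈ N2 D v, w x) ∧
    (∀ {V Q : Type u} [Fintype V] [Nonempty V] (D : OGraph V) (E : OGraph Q) (π : V → Q)
      [∀ q, Fintype {x // π x = q}], Function.Surjective π →
      (∀ u v, π u ≠ π v → (D.arc u v ↔ E.arc (π u) (π v))) → Built E →
      (∀ q, ∃ v, (N1 (pull D (Subtype.val : {x // π x = q} → V)) v).card ≤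
        (N2 (pull D (Subtype.val : {x // π x = q} → V)) v).card) →
      ∃ v, (N1 D v).card ≤ (N2 D v).card) := by
  have hP : ∀ {V : Type u} [Fintype V] [Nonempty V] (D : OGraph V), OnlySinkK4 D → WSNC D :=
    fun D hD w hw => snc_weighted D hD.noBad w hw
  refine ⟨fun D hD => ?_, fun D E π _ hπ harc hE hF => Built.card_subst hP D E π hπ harc hE hF⟩
  have h := hD.wsnc hP
  refine ⟨?_, h⟩
  obtain ⟨v, hv⟩ := h (fun _ => 1) (fun _ => zero_le_one)
  exact ⟨v, by simpa using hv⟩
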